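import Vale.Agent.P277.Stmts20
import Vale.Agent.P277.H371.G.FinCore
import Vale.Agent.P277.H371.G.WrapCore

/-!
# P277, (G) and (K): the assembly
-/

set_option maxSynthPendingDepth 3

open scoped Manifold ContDiff Topology
open Vale.Agent.P272.K Vale.Agent.P285.H281.FD Vale.Agent.P267.H175 Set Filter

noncomputable section

namespace Vale.Agent.P277.H371.G

open Vale.Agent.P277 Vale.Agent.P277.T3 H615 H371.C

section

variable {Y : Type} [TopologicalSpace Y] [ChartedSpace (Cm 4) Y]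
  {χ : Chart 4 Y → Cm 4 → Matrix (Fin 4) (Fin 4) ℂ} {k s : ℕ} {M : Fin (k + s) → Bd Y}
  {m : Fin (k + s) → ℕ} {ρ : Fin (k + s) → ℝ} {H : Fin s → Type} [∀ i, TopologicalSpace (H i)]
  [∀ i, ChartedSpace (Cm 3) (H i)] {ι : ∀ i, H i → Y}
  {sg : ∀ i : Fin s, (M (Fin.natAdd k i)).ι → Y → ℂ} {W : CSp} {X Z : ℕ → CSp} {r : ℕ}
  {v₀ : Y → W.pt} {p : W.pt → (X 0).pt} {P : Bd W.pt} {G : Fin r → Set Y}
  {f : ∀ j, (X j).pt → (Z j).pt} {f' : ∀ j, (X (j + 1)).pt → (Z j).pt}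
  {A : ∀ j, Set (Z j).pt} {L : ∀ j, Fin (k + s) → Bd (X j).pt} {c : ℕ → Fin (k + s) → ℕ}
  {σ : ∀ j, ∀ i : Fin s, (L j (Fin.natAdd k i)).ι → (X j).pt → ℂ}
  {n : Fin (k + s) → Fin r → ℤ} {t : ∀ e, (L 0 e).ι →
    ((((Bd.can 4 Y).pow (m e)).mul (M e)).pow (c 0 e)).ι → Y → ℂ}

theorem _root_.Vale.Agent.P277.T3.IsPG.amin
    (h : IsPG χ M m ρ ι sg v₀ p P G f f' A L c σ n t) :
    IsPG χ M m ρ ι sg v₀ p P G f f' (fun j => Amin (f j)) L c σ n t :=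
  { h with flip := fun j => IsFlipB.amin (h.flip j) (h.c1 j) }

end

/-- (T4G), from CONTR and P7G. -/
theorem stT4G_of (hC : StContr) (hP : StP7G) : StT4G := by
  intro Y _ _ _ _ _ χ k s M m ρ H _ _ _ _ _ _ ι sg W X Z r v₀ p P G f f' A L c σ n t h' I I' hI hI'
    hreg hbad
  have h := h'.amin
  exact fin_core hC h.lb h.bd h.res h.ne h.c1 h.cmp h.corr h.flip hreg
    (hP Y χ k s M m ρ H ι sg W X Z r v₀ p P G f f' _ L c σ n t h I I' hI hI' hreg hbad)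

/-- (T4GF), from REGG and T4G. -/
theorem stT4GF_of (hR : StRegG) (hT : StT4G) : StT4GF := by
  intro Y _ _ _ _ _ χ hχ k s M hM hnef m hm hm0 ρ hρ hsum H _ _ _ _ _ _ ι sg hbd hdisj W X Z r
    v p P G hres hne f f' A L c hc n hn hflip h1 h2
  obtain ⟨L', c', σ, t, hc', hcmp, hcorr, hcc, hfl⟩ := wrap_core (ι := ι) hM hm0 hbd hres hc hn hflip
  have h : IsPG χ M m ρ ι sg v p P G f f' A L' c' σ n t :=
    ⟨hχ, hM, hnef, hm, hm0, hρ, hsum, hbd, hdisj, hres, hne, hc', hcmp, hcorr, hfl⟩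
  have hI : ∀ l ∉ {l | ∑ e, ρ e * n e l / c 0 e < 0}, 0 ≤ ∑ e, ρ e * n e l / c' 0 e := by
    intro l hl
    simp only [hcc]
    exact not_lt.1 hl
  refine hT Y χ k s M m ρ H ι sg W X Z r v p P G f f' A L' c' σ n t h
    {l | ∑ e, ρ e * n e l / c 0 e < 0} {i | 1 ≤ ρ (Fin.natAdd k i)} hI
    (fun i hi => not_le.1 hi) ?_ h2
  exact hR Y χ k s M m ρ H ι sg W X Z r v p P G f f' A L' c' σ n t h
    {l | ∑ e, ρ e * n e l / c 0 e < 0} {i | 1 < ρ (Fin.natAdd k i)} hI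
    (fun i hi => not_lt.1 hi) h1

/-- (T4KF), from REGK and T4G. -/
theorem stT4KF_of (hR : StRegK) (hT : StT4G) : StT4KF := by
  intro Y _ _ _ _ _ χ hχ k s M hM hnef m hm hm0 ρ hρ hsum H _ _ _ _ _ _ ι sg hbd hdisj W X Z r
    v p P G hres hne f f' A L c hc n hn hflip K hK1 hK2 hK3 h1 h2
  obtain ⟨L', c', σ, t, hc', hcmp, hcorr, hcc, hfl⟩ := wrap_core (ι := ι) hM hm0 hbd hres hc hn hflip
  have h : IsPG χ M m ρ ι sg v p P G f f' A L' c' σ n t :=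
    ⟨hχ, hM, hnef, hm, hm0, hρ, hsum, hbd, hdisj, hres, hne, hc', hcmp, hcorr, hfl⟩
  have hI : ∀ l ∉ {l | ∑ e, ρ e * n e l / c 0 e < 0}, 0 ≤ ∑ e, ρ e * n e l / c' 0 e := by
    intro l hl
    simp only [hcc]
    exact not_lt.1 hl
  refine hT Y χ k s M m ρ H ι sg W X Z r v p P G f f' A L' c' σ n t h
    {l | ∑ e, ρ e * n e l / c 0 e < 0} {i | 1 ≤ ρ (Fin.natAdd k i)} hI
    (fun i hi => not_le.1 hi) ?_ h2
  refine hR Y χ k s M m ρ H ι sg W X Z r v p P G f f' A L' c' σ n t h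
    {l | l ∉ K ∧ ∑ e, ρ e * n e l / c 0 e < 0} K {i | 1 < ρ (Fin.natAdd k i)} (fun l hl hlK => ?_)
    (fun i hi => not_lt.1 hi) (fun l hl => ?_) hK2 (fun l hl i hi => hK3 l hl i (not_lt.1 hi)) h1
  · simp only [hcc]
    exact not_lt.1 fun h3 => hl ⟨hlK, h3⟩
  · simp only [hcc]
    exact hK1 l hl

/-- the case `K = ∅` -/
theorem stT4GF_of_KF (h : StT4KF) : StT4GF := by
  intro Y _ _ _ _ _ χ hχ k s M hM hnef m hm hm0 ρ hρ hsum H _ _ _ _ _ _ ι sg hbd hdisj W X Z r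
    v p P G hres hne f f' A L c hc n hn hflip h1 h2
  refine h Y χ hχ k s M hM hnef m hm hm0 ρ hρ hsum H ι sg hbd hdisj W X Z r
    v p P G hres hne f f' A L c hc n hn hflip ∅ (fun l hl => hl.elim) (fun l hl => hl.elim)
    (fun l hl => hl.elim) (fun j => (h1 j).mono ?_) h2
  rintro x ⟨hx1, hx2, hx3⟩
  refine ⟨hx1, hx2, ?_⟩
  rcases hx3 with hx3 | hx3
  · simpa using hx3
  · simp [Val] at hx3

end Vale.Agent.P277.H371.G
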