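import Vale.Agent.P277.H335.K.RegK
import Vale.Agent.P277.H371.G.FinG
import Vale.Agent.P277.H619.T3.Fin6
import Vale.Agent.P277.H884.G.P7G

/-!
# P277, (G) and (K), final form
-/

noncomputable section

namespace Vale.Agent.P277.H371.G

/-- (T4G) -/
theorem stT4G : T3.StT4G := stT4G_of T3.stContr H884.G.stP7G

/-- (T4KF): the flipped surfaces in an infinite sequence of flips of an arbitrary NQC pair -/
theorem stT4KF : T3.StT4KF := stT4KF_of H335.KK.stRegK stT4G

/-- (T4GF) -/
theorem stT4GF : T3.StT4GF := stT4GF_of_KF stT4KF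

end Vale.Agent.P277.H371.G
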