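import Vale.Agent.P277.Stmts20
import Vale.Agent.P277.H371.G.FinCore
import Vale.Agent.P277.H615.R.TXV

/-!
# P277, (G): Theorem T4 is a special case
-/

set_option maxSynthPendingDepth 3

open scoped Manifold ContDiff Topology
open Vale.Agent.P272.K Vale.Agent.P285.H281.FD Vale.Agent.P267.H175 Set Filter Metric

noncomputable section

namespace Vale.Agent.P277.H371.G

open Vale.Agent.P277 Vale.Agent.P277.T3 H615 H371.C

section

variable {Y : Type} [TopologicalSpace Y] [ChartedSpace (Cm 4) Y] {X : CSp}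

/-- The bad points are in the total transform. -/
theorem badPt_mem {S : Set X.pt} {Cr : Y → X.pt → Prop} {Bad : Set Y}
    (hd : DimLe X 2 {x | ∃ y, Cr y x}ᶜ) {x : X.pt} (h : BadPt S Cr Bad x) :
    x ∈ S ∧ x ∈ T3.Tot Cr Bad := by
  obtain ⟨ξ, r, W, w₀, γ, ch, hr, hinj, hopen, hhol, hξS, hW, hw₀, hw₀0, rfl, hγ⟩ := h
  have hξ : H19.LocIso X ξ (ball 0 r) := ⟨isOpen_ball, hinj, hopen, hhol⟩
  obtain ⟨h1, h2, h3, h4, h5, h6⟩ := hγ w₀ hw₀
  obtain ⟨h7, h8⟩ := h6 hw₀0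
  refine ⟨hξS _ h1 hw₀0 ?_, γ w₀, h7, ?_⟩
  · show w₀ 0 * w₀ 1 = 0
    rw [hw₀0, zero_mul]
  rw [mem_closure_iff_nhds]
  intro U hU
  have hc1 : ContinuousAt (fun w => ξ (bl w)) w₀ :=
    ContinuousAt.comp (g := ξ) (hξ.hol _ h1).1 H19.continuous_bl.continuousAt
  have hc : ContinuousAt (fun w => (γ w, ξ (bl w))) w₀ := h3.prodMk hc1
  obtain ⟨N', hN'N, hN'o, hwN'⟩ := _root_.mem_nhds_iff.1 (inter_mem (hc hU) (hW.mem_nhds hw₀))
  obtain ⟨w', hw', hw'0⟩ := H19.exists_ne_zero (hN'o.mem_nhds hwN')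
  have h9 : IsOpen (N' ∩ {w : Cm 4 | w 0 ≠ 0}) :=
    hN'o.inter (isOpen_ne_fun (continuous_apply 0) continuous_const)
  obtain ⟨z, ⟨w'', hw'', rfl⟩, hz2⟩ := hξ.dense (by norm_num) hd
    (H19.isOpen_image_bl h9 fun w hw => hw.2)
    (image_subset_iff.2 fun w hw => (hγ w (hN'N hw.1).2).1)
    ⟨bl w', mem_image_of_mem bl ⟨hw', hw'0⟩⟩
  have h10 : ∃ y, Cr y (ξ (bl w'')) := by
    by_contra hcon
    exact hz2 hcon
  obtain ⟨y, hy⟩ := h10
  have h11 := (hγ w'' (hN'N hw''.1).2).2.1 y hy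
  refine ⟨(γ w'', ξ (bl w'')), (hN'N hw''.1).1, ?_⟩
  show Cr (γ w'') (ξ (bl w''))
  rw [h11]
  exact hy

end

/-- The total transform is contained in the sets `N j` of Theorem T4. -/
theorem tot_sub {Y : Type} [TopologicalSpace Y] [T2Space Y] {X Z : ℕ → CSp}
    {D : Set Y} {v₀ : Y → (X 0).pt} (hv : Continuous v₀)
    {f : ∀ j, (X j).pt → (Z j).pt} {f' : ∀ j, (X (j + 1)).pt → (Z j).pt}
    (hf : ∀ j, Continuous (f j)) (hf' : ∀ j, Continuous (f' j)) {B : Set Y}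
    {N : ∀ j, Set (X j).pt} (h0 : ∀ y ∈ B, v₀ y ∈ N 0)
    (hs : ∀ j, ∀ x ∈ N j, ∀ x', f' j x' = f j x → x' ∈ N (j + 1)) (j : ℕ) :
    T3.Tot (Cor D v₀ f f' j) B ⊆ N j := by
  induction j with
  | zero =>
    rintro x ⟨y, hy, hyx⟩
    have h1 : closure {q : Y × (X 0).pt | Cor D v₀ f f' 0 q.1 q.2} ⊆ {q | v₀ q.1 = q.2} := by
      refine closure_minimal ?_ (isClosed_eq (hv.comp continuous_fst) continuous_snd)
      rintro ⟨y', x'⟩ ⟨-, h2⟩
      exact h2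
    have h2 : v₀ y = x := h1 hyx
    rw [← h2]
    exact h0 y hy
  | succ j ih =>
    rintro x' ⟨y, hy, hyx⟩
    set R : Set (Y × (X (j + 1)).pt) := (fun q : (Y × (X (j + 1)).pt) × (X j).pt => q.1) ''
      {q : (Y × (X (j + 1)).pt) × (X j).pt |
        (q.1.1, q.2) ∈ closure {q : Y × (X j).pt | Cor D v₀ f f' j q.1 q.2} ∧
          f j q.2 = f' j q.1.2} with hR
    have hRc : IsClosed R := by
      refine isClosedMap_fst_of_compactSpace _ ?_
      refine IsClosed.inter ?_ ?_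
      · exact isClosed_closure.preimage
          ((continuous_fst.comp continuous_fst).prodMk continuous_snd)
      · exact isClosed_eq ((hf j).comp continuous_snd)
          ((hf' j).comp (continuous_snd.comp continuous_fst))
    have h1 : closure {q : Y × (X (j + 1)).pt | Cor D v₀ f f' (j + 1) q.1 q.2} ⊆ R := by
      refine closure_minimal ?_ hRc
      rintro ⟨y', x''⟩ ⟨x, h2, h3, -⟩
      exact ⟨((y', x''), x), ⟨subset_closure h2, h3⟩, rfl⟩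
    obtain ⟨⟨⟨y', x''⟩, x⟩, ⟨h2, h3⟩, h4⟩ := h1 hyx
    obtain ⟨rfl, rfl⟩ := Prod.ext_iff.1 h4
    exact hs j x (ih ⟨_, hy, h2⟩) _ h3.symm

/-- Theorem T4 from (G) -/
theorem stT4F_of_GF (h : StT4GF) : StT4F := by
  intro Y _ _ _ _ _ χ hχ k s M hM hnef m hm hm0 ρ hρ hsum H _ _ _ _ _ _ ι sg hbd hdisj W X Z r
    v p P G hres hne f f' A L c hc n hn hflip N hNl hNi hNs hNf
  have hsm : ∀ j, IsSmall (X j) (Z j) (f j) (Amin (f j)) := fun j =>
    (H371.C.IsFlipR.amin (hflip j) (hc j)).small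
  have hsm' : ∀ j, IsSmall (X (j + 1)) (Z j) (f' j) (Amin (f j)) := fun j =>
    (H371.C.IsFlipR.amin (hflip j) (hc j)).small'
  have hseq := isSeq_sq hsm hsm' hres.emb' (by
    refine (hres.dim).mono ?_
    intro x hx
    obtain ⟨w, rfl⟩ := hres.psurj x
    obtain ⟨y, rfl⟩ := hres.surj w
    refine ⟨y, ?_, rfl⟩
    by_contra hy
    exact hx ⟨y, hy, rfl⟩)
  have hcr : ∀ j, ∀ y ∈ (sq f hsm' (⋃ l, G l)ᶜ (fun y => p (v y)) j).1,
      Cor (⋃ l, G l) (fun y => p (v y)) f f' j y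
        ((sq f hsm' (⋃ l, G l)ᶜ (fun y => p (v y)) j).2 y) := by
    intro j
    induction j with
    | zero => exact fun y hy => ⟨hy, rfl⟩
    | succ j ih => exact fun y hy => ⟨_, ih y hy.1, ((hsm' j).sec_eq _).symm, hy.2⟩
  have hdim : ∀ j, DimLe (X j) 2 {x | ∃ y, Cor (⋃ l, G l) (fun y => p (v y)) f f' j y x}ᶜ := by
    intro j
    refine (hseq.dim j).mono fun x hx hx' => hx ?_
    obtain ⟨y, hy, rfl⟩ := hx'
    exact ⟨y, hcr j y hy⟩
  have htot : ∀ j, T3.Tot (Cor (⋃ l, G l) (fun y => p (v y)) f f' j)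
      (bad ι G {l | ∑ e, ρ e * n e l / c 0 e < 0} {i | 1 ≤ ρ (Fin.natAdd k i)}) ⊆ N j := by
    refine tot_sub (hres.cont.comp (continuousOn_univ.1 hres.emb.cont)) (fun j => (hsm j).cont)
      (fun j => (hsm' j).cont) ?_ hNs
    rintro y (hy | hy)
    · obtain ⟨l, hl, hy⟩ := mem_iUnion₂.1 hy
      exact hNl l hl y hy
    · obtain ⟨i, hi, x, rfl⟩ := mem_iUnion₂.1 hy
      exact hNi i hi x
  refine h Y χ hχ k s M hM hnef m hm hm0 ρ hρ hsum H ι sg hbd hdisj W X Z r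
    v p P G hres hne f f' A L c hc n hn hflip (fun j => (hNf j).mono ?_)
    (fun j => (hNf j).mono ?_)
  · rintro x ⟨hx1, -, y, hy, hyx⟩
    obtain ⟨y1, y2, h3, h4, h5⟩ := hx1
    refine ⟨htot (j + 1) ⟨y, ?_, hyx⟩, y1, y2, h3, h4, h5⟩
    rcases hy with hy | hy
    · exact Or.inl hy
    · obtain ⟨i, hi, hy⟩ := mem_iUnion₂.1 hy
      exact Or.inr (mem_iUnion₂.2 ⟨i, (le_of_lt (show (1 : ℝ) < ρ (Fin.natAdd k i) from hi) :), hy⟩)
  · rintro x hx
    obtain ⟨⟨y1, y2, h3, h4, h5⟩, h6⟩ := badPt_mem (hdim (j + 1)) hx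
    exact ⟨htot (j + 1) h6, y1, y2, h3, h4, h5⟩

end Vale.Agent.P277.H371.G
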